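import Vale.Agent.P235.XC.H237.Mono
import Vale.Agent.P235.XC.H76.Blocks
import Vale.Agent.P235.H427.Blk

/-!
P235, line XC (helper452): `(TX r, inl 0)` is a rooted minor of `(TX (2 r), k)` for every vertex `k`.
-/

set_option autoImplicit false

namespace Vale.Agent.P235.XC.H452

open SimpleGraph Vale.Agent.P235.H134 Vale.Agent.P235.XC Vale.Agent.P235.XC.H237
open Vale.Agent.P235.H750 (RMinor)

theorem rmono {r s : ℕ} (hrs : r ≤ s) : RMinor (TX r) (Sum.inl 0) (TX s) (Sum.inl 0) := by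
  refine ⟨mu r s, mu_conn hrs, mu_disj, fun a b hab => ?_, rfl⟩
  rcases hab with ⟨-, h | h⟩
  · exact mu_edge hrs h
  · obtain ⟨x, hx, y, hy, hxy⟩ := mu_edge hrs h
    exact ⟨y, hy, x, hx, hxy.symm⟩

theorem hub {s : ℕ} (p : Fin 2) (S : Set (Fin s × Fin s)) (hS : ((grid s).induce S).Connected)
    (x0 : Fin s × Fin s) (hx0 : x0 ∈ S) (h : (TX s).Adj (Sum.inl p) (Sum.inr x0)) :
    ((TX s).induce {v | v = Sum.inl p ∨ ∃ x ∈ S, v = Sum.inr x}).Connected := by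
  let f : (grid s).induce S →g (TX s).induce {v | v = Sum.inl p ∨ ∃ x ∈ S, v = Sum.inr x} :=
    ⟨fun x => ⟨Sum.inr x.1, Or.inr ⟨x.1, x.2, rfl⟩⟩, fun {a b} hab => tx_g hab⟩
  have h0 : (Sum.inr x0 : Fin 2 ⊕ (Fin s × Fin s)) ∈
      {v : Fin 2 ⊕ (Fin s × Fin s) | v = Sum.inl p ∨ ∃ x ∈ S, v = Sum.inr x} :=
    Or.inr ⟨x0, hx0, rfl⟩
  have key : ∀ u : {v : Fin 2 ⊕ (Fin s × Fin s) | v = Sum.inl p ∨ ∃ x ∈ S, v = Sum.inr x},
      ((TX s).induce {v | v = Sum.inl p ∨ ∃ x ∈ S, v = Sum.inr x}).Reachable u ⟨_, h0⟩ := by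
    rintro ⟨u, hu | ⟨x, hx, hu⟩⟩
    · subst hu
      exact Adj.reachable h
    · subst hu
      exact (hS.preconnected ⟨x, hx⟩ ⟨x0, hx0⟩).map f
  have : Nonempty {v : Fin 2 ⊕ (Fin s × Fin s) | v = Sum.inl p ∨ ∃ x ∈ S, v = Sum.inr x} :=
    ⟨⟨_, h0⟩⟩
  exact ⟨fun u v => (key u).trans (key v).symm⟩

/-- the grid part of the branch sets of the two hubs -/
def HS (r a : ℕ) (p : Fin 2) : Set (Fin (2 * r) × Fin (2 * r)) :=
  {x | (p = 0 ∧ (x.1.val < a ∨ a + r ≤ x.1.val)) ∨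
    (p = 1 ∧ a ≤ x.1.val ∧ x.1.val < a + r ∧ r ≤ x.2.val)}

/-- the branch sets -/
def nu (r a : ℕ) : Fin 2 ⊕ (Fin r × Fin r) → Set (Fin 2 ⊕ (Fin (2 * r) × Fin (2 * r)))
  | Sum.inl p => {v | v = Sum.inl p ∨ ∃ x ∈ HS r a p, v = Sum.inr x}
  | Sum.inr y => {v | ∃ x : Fin (2 * r) × Fin (2 * r), v = Sum.inr x ∧
      x.1.val = a + y.1.val ∧ x.2.val = y.2.val}

theorem nu_conn {r a : ℕ} (hr : 1 ≤ r) (ha : a = 0 ∨ a = r) (b : Fin 2 ⊕ (Fin r × Fin r)) :
    ((TX (2 * r)).induce (nu r a b)).Connected := by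
  rcases b with p | y
  · have hp : p = 0 ∨ p = 1 := by
      fin_cases p
      · exact Or.inl rfl
      · exact Or.inr rfl
    rcases hp with rfl | rfl
    · rcases ha with rfl | rfl
      · refine hub 0 _ (H76.rect_conn (HS r 0 0) r (2 * r) 0 (2 * r) (fun x => ?_) (by omega)
          le_rfl (by omega) le_rfl) (⟨2 * r - 1, by omega⟩, ⟨0, by omega⟩) ?_ (tx_0 (Or.inr ?_))
        · have h1 := x.1.2
          have h2 := x.2.2
          constructor
          · rintro (⟨-, h | h⟩ | ⟨h, -⟩)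
            · omega
            · refine ⟨by omega, h1, by omega, h2⟩
            · exact absurd h (by decide)
          · rintro ⟨h3, -⟩
            exact Or.inl ⟨rfl, Or.inr (by omega)⟩
        · refine Or.inl ⟨rfl, Or.inr ?_⟩
          simp only
          omega
        · simp only
          omega
      · refine hub 0 _ (H76.rect_conn (HS a a 0) 0 a 0 (2 * a) (fun x => ?_) (by omega)
          (by omega) (by omega) le_rfl) (⟨0, by omega⟩, ⟨0, by omega⟩) ?_ (tx_0 (Or.inl rfl))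
        · have h1 := x.1.2
          have h2 := x.2.2
          constructor
          · rintro (⟨-, h | h⟩ | ⟨h, -⟩)
            · exact ⟨by omega, h, by omega, h2⟩
            · omega
            · exact absurd h (by decide)
          · rintro ⟨-, h3, -⟩
            exact Or.inl ⟨rfl, Or.inl h3⟩
        · refine Or.inl ⟨rfl, Or.inl ?_⟩
          simp only
          omega
    · refine hub 1 _ (H76.rect_conn (HS r a 1) a (a + r) r (2 * r) (fun x => ?_) (by omega)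
          (by omega) (by omega) le_rfl) (⟨a, by omega⟩, ⟨2 * r - 1, by omega⟩) ?_
          (tx_1 (Or.inr ?_))
      · have h1 := x.1.2
        have h2 := x.2.2
        constructor
        · rintro (⟨h, -⟩ | ⟨-, h3, h4, h5⟩)
          · exact absurd h (by decide)
          · exact ⟨h3, h4, h5, h2⟩
        · rintro ⟨h3, h4, h5, -⟩
          exact Or.inr ⟨rfl, h3, h4, h5⟩
      · refine Or.inr ⟨rfl, ?_, ?_, ?_⟩
        · simp only
          omega
        · simp only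
          omega
        · simp only
          omega
      · simp only
        omega
  · have h1 := y.1.2
    have h2 := y.2.2
    have hb : (Sum.inr ((⟨a + y.1.val, by omega⟩, ⟨y.2.val, by omega⟩) :
        Fin (2 * r) × Fin (2 * r)) : Fin 2 ⊕ (Fin (2 * r) × Fin (2 * r))) ∈ nu r a (Sum.inr y) :=
      ⟨_, rfl, rfl, rfl⟩
    have : Nonempty (nu r a (Sum.inr y)) := ⟨⟨_, hb⟩⟩
    refine ⟨fun u v => ?_⟩
    have e : u = v := by
      obtain ⟨u, x, rfl, hx1, hx2⟩ := u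
      obtain ⟨v, z, rfl, hz1, hz2⟩ := v
      exact Subtype.ext (congrArg Sum.inr (Prod.ext (Fin.ext (hx1.trans hz1.symm))
        (Fin.ext (hx2.trans hz2.symm))))
    rw [e]

theorem nu_disj {r a : ℕ} (b c : Fin 2 ⊕ (Fin r × Fin r)) (hbc : b ≠ c) :
    Disjoint (nu r a b) (nu r a c) := by
  rw [Set.disjoint_left]
  intro v hvb hvc
  rcases b with p | b <;> rcases c with q | c
  · rcases hvb with hv | ⟨x, hx, hv⟩ <;> rcases hvc with hv' | ⟨x', hx', hv'⟩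
    · exact hbc (congrArg Sum.inl (Sum.inl.inj (hv.symm.trans hv')))
    · exact absurd (hv.symm.trans hv') Sum.inl_ne_inr
    · exact absurd (hv'.symm.trans hv) Sum.inl_ne_inr
    · obtain rfl : x = x' := Sum.inr.inj (hv.symm.trans hv')
      rcases hx with ⟨hp, hx⟩ | ⟨hp, hx⟩ <;> rcases hx' with ⟨hq, hx'⟩ | ⟨hq, hx'⟩
      · exact hbc (by rw [hp, hq])
      · omega
      · omega
      · exact hbc (by rw [hp, hq])
  · obtain ⟨z, hz, hz1, hz2⟩ := hvc
    have h1 := c.1.2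
    have h2 := c.2.2
    rcases hvb with hv | ⟨x, hx, hv⟩
    · exact absurd (hv.symm.trans hz) Sum.inl_ne_inr
    · obtain rfl : x = z := Sum.inr.inj (hv.symm.trans hz)
      rcases hx with ⟨-, hx⟩ | ⟨-, hx⟩ <;> omega
  · obtain ⟨z, hz, hz1, hz2⟩ := hvb
    have h1 := b.1.2
    have h2 := b.2.2
    rcases hvc with hv | ⟨x, hx, hv⟩
    · exact absurd (hv.symm.trans hz) Sum.inl_ne_inr
    · obtain rfl : x = z := Sum.inr.inj (hv.symm.trans hz)
      rcases hx with ⟨-, hx⟩ | ⟨-, hx⟩ <;> omega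
  · obtain ⟨x, h1, h2, h3⟩ := hvb
    obtain ⟨y, h4, h5, h6⟩ := hvc
    obtain rfl : x = y := Sum.inr.inj (h1.symm.trans h4)
    exact hbc (congrArg Sum.inr (Prod.ext (Fin.ext (by omega)) (Fin.ext (by omega))))

theorem nu_edge {r a : ℕ} (ha : a = 0 ∨ a = r) {b c : Fin 2 ⊕ (Fin r × Fin r)}
    (h : (∃ x : Fin r × Fin r, (x.1.val = 0 ∨ x.1.val + 1 = r) ∧ b = Sum.inl 0 ∧ c = Sum.inr x) ∨
    (∃ x : Fin r × Fin r, (x.2.val = 0 ∨ x.2.val + 1 = r) ∧ b = Sum.inl 1 ∧ c = Sum.inr x) ∨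
    ∃ x y : Fin r × Fin r, (grid r).Adj x y ∧ b = Sum.inr x ∧ c = Sum.inr y) :
    ∃ x ∈ nu r a b, ∃ y ∈ nu r a c, (TX (2 * r)).Adj x y := by
  rcases h with ⟨x, hx, rfl, rfl⟩ | ⟨x, hx, rfl, rfl⟩ | ⟨x, y, hxy, rfl, rfl⟩
  · have h1 := x.1.2
    have h2 := x.2.2
    have hy : (Sum.inr ((⟨a + x.1.val, by omega⟩, ⟨x.2.val, by omega⟩) :
        Fin (2 * r) × Fin (2 * r)) : Fin 2 ⊕ (Fin (2 * r) × Fin (2 * r))) ∈ nu r a (Sum.inr x) :=
      ⟨_, rfl, rfl, rfl⟩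
    rcases hx with hx | hx
    · rcases ha with rfl | rfl
      · refine ⟨Sum.inl 0, Or.inl rfl, _, hy, tx_0 (Or.inl ?_)⟩
        simp only
        omega
      · refine ⟨Sum.inr (⟨a - 1, by omega⟩, ⟨x.2.val, by omega⟩),
          Or.inr ⟨_, Or.inl ⟨rfl, Or.inl ?_⟩, rfl⟩, _, hy,
          tx_g ((grid_adj _ _).2 (Or.inl ⟨rfl, Or.inl ?_⟩))⟩
        · simp only
          omega
        · simp only
          omega
    · rcases ha with rfl | rfl
      · refine ⟨Sum.inr (⟨r, by omega⟩, ⟨x.2.val, by omega⟩),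
          Or.inr ⟨_, Or.inl ⟨rfl, Or.inr ?_⟩, rfl⟩, _, hy,
          tx_g ((grid_adj _ _).2 (Or.inl ⟨rfl, Or.inr ?_⟩))⟩
        · simp only
          omega
        · simp only
          omega
      · refine ⟨Sum.inl 0, Or.inl rfl, _, hy, tx_0 (Or.inr ?_)⟩
        simp only
        omega
  · have h1 := x.1.2
    have h2 := x.2.2
    have hy : (Sum.inr ((⟨a + x.1.val, by omega⟩, ⟨x.2.val, by omega⟩) :
        Fin (2 * r) × Fin (2 * r)) : Fin 2 ⊕ (Fin (2 * r) × Fin (2 * r))) ∈ nu r a (Sum.inr x) :=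
      ⟨_, rfl, rfl, rfl⟩
    rcases hx with hx | hx
    · refine ⟨Sum.inl 1, Or.inl rfl, _, hy, tx_1 (Or.inl ?_)⟩
      simp only
      omega
    · refine ⟨Sum.inr (⟨a + x.1.val, by omega⟩, ⟨r, by omega⟩),
          Or.inr ⟨_, Or.inr ⟨rfl, ?_, ?_, ?_⟩, rfl⟩, _, hy,
          tx_g ((grid_adj _ _).2 (Or.inr ⟨rfl, Or.inr ?_⟩))⟩
      · simp only
        omega
      · simp only
        omega
      · simp only
        omega
      · simp only
        omega
  · have h1 := x.1.2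
    have h2 := x.2.2
    have h3 := y.1.2
    have h4 := y.2.2
    refine ⟨Sum.inr (⟨a + x.1.val, by omega⟩, ⟨x.2.val, by omega⟩), ⟨_, rfl, rfl, rfl⟩,
      Sum.inr (⟨a + y.1.val, by omega⟩, ⟨y.2.val, by omega⟩), ⟨_, rfl, rfl, rfl⟩,
      tx_g ((grid_adj _ _).2 ?_)⟩
    rcases (grid_adj _ _).1 hxy with ⟨e, f⟩ | ⟨e, f⟩
    · have e' : x.2.val = y.2.val := congrArg Fin.val e
      refine Or.inl ⟨Fin.ext e', ?_⟩
      simp only
      omega
    · have e' : x.1.val = y.1.val := congrArg Fin.val e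
      refine Or.inr ⟨Fin.ext ?_, f⟩
      simp only
      omega

theorem root_a {r a : ℕ} (hr : 1 ≤ r) (ha : a = 0 ∨ a = r) (k : Fin 2 ⊕ (Fin (2 * r) × Fin (2 * r)))
    (hk : k ∈ nu r a (Sum.inl 0)) : RMinor (TX r) (Sum.inl 0) (TX (2 * r)) k := by
  refine ⟨nu r a, nu_conn hr ha, nu_disj, fun b c hbc => ?_, hk⟩
  rcases hbc with ⟨-, h | h⟩
  · exact nu_edge ha h
  · obtain ⟨x, hx, y, hy, hxy⟩ := nu_edge ha h
    exact ⟨y, hy, x, hx, hxy.symm⟩

/-- transposition -/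
def tr (s : ℕ) : Fin 2 ⊕ (Fin s × Fin s) ≃ Fin 2 ⊕ (Fin s × Fin s) :=
  Equiv.sumCongr (Equiv.swap 0 1) (Equiv.prodComm _ _)

theorem tr_half {s : ℕ} {u v : Fin 2 ⊕ (Fin s × Fin s)} (h : (TX s).Adj u v) :
    (TX s).Adj (tr s u) (tr s v) := by
  have key : ∀ u v : Fin 2 ⊕ (Fin s × Fin s),
      ((∃ x : Fin s × Fin s, (x.1.val = 0 ∨ x.1.val + 1 = s) ∧ u = Sum.inl 0 ∧ v = Sum.inr x) ∨
      (∃ x : Fin s × Fin s, (x.2.val = 0 ∨ x.2.val + 1 = s) ∧ u = Sum.inl 1 ∧ v = Sum.inr x) ∨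
      ∃ x y : Fin s × Fin s, (grid s).Adj x y ∧ u = Sum.inr x ∧ v = Sum.inr y) →
      (TX s).Adj (tr s u) (tr s v) := by
    rintro u v (⟨x, hx, rfl, rfl⟩ | ⟨x, hx, rfl, rfl⟩ | ⟨x, y, hxy, rfl, rfl⟩)
    · exact tx_1 (x := x.swap) hx
    · exact tx_0 (x := x.swap) hx
    · refine tx_g (x := x.swap) (y := y.swap) ((grid_adj _ _).2 ?_)
      rcases (grid_adj _ _).1 hxy with h | h
      · exact Or.inr h
      · exact Or.inl h
  rcases h with ⟨-, h | h⟩
  · exact key _ _ h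
  · exact (key _ _ h).symm

theorem tr_tr {s : ℕ} (u : Fin 2 ⊕ (Fin s × Fin s)) : tr s (tr s u) = u := by
  rcases u with p | x
  · show Sum.inl (Equiv.swap 0 1 (Equiv.swap 0 1 p)) = Sum.inl p
    rw [Equiv.swap_apply_self]
  · rfl

def trIso (s : ℕ) : TX s ≃g TX s :=
  ⟨tr s, fun {u v} => ⟨fun h => by
    have := tr_half h
    rwa [tr_tr, tr_tr] at this, tr_half⟩⟩

/-- `(TX r, inl 0)` is a rooted minor of `(TX (2 r), k)` for every vertex `k` -/
theorem root_any {r : ℕ} (hr : 1 ≤ r) (k : Fin 2 ⊕ (Fin (2 * r) × Fin (2 * r))) :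
    RMinor (TX r) (Sum.inl 0) (TX (2 * r)) k := by
  rcases k with p | x
  · have hp : p = 0 ∨ p = 1 := by
      fin_cases p
      · exact Or.inl rfl
      · exact Or.inr rfl
    rcases hp with rfl | rfl
    · exact root_a hr (Or.inl rfl) _ (Or.inl rfl)
    · have h1 : RMinor (TX (2 * r)) (Sum.inl 0) (TX (2 * r)) (trIso (2 * r) (Sum.inl 0)) :=
        H427.rminor_iso (trIso (2 * r)) _
      have h2 : trIso (2 * r) (Sum.inl 0) = Sum.inl 1 := by
        show Sum.inl (Equiv.swap 0 1 0) = _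
        rw [Equiv.swap_apply_left]
      rw [h2] at h1
      exact H427.rminor_trans' (root_a hr (Or.inl rfl) _ (Or.inl rfl)) h1
  · by_cases h : x.1.val < r
    · exact root_a hr (Or.inr rfl) _ (Or.inr ⟨x, Or.inl ⟨rfl, Or.inl h⟩, rfl⟩)
    · exact root_a hr (Or.inl rfl) _ (Or.inr ⟨x, Or.inl ⟨rfl, Or.inr (by omega)⟩, rfl⟩)

end Vale.Agent.P235.XC.H452
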